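import Vale.Agent.P181.O2.DefsB
import Vale.Agent.P181.O2.H43.T
import Vale.Agent.P181.O2.H696.W123
import Vale.Agent.P181.SZR5b.Mark

set_option autoImplicit false

/-!
# P181, O2, [B2]: the lower bound of the gain by coloured states
-/

open MvPolynomial

namespace Vale.Agent.P181.O2.H731

open Vale.Agent.P181.T4 (HW rowOp rowW rowOp_apply mem_HW_iff_isWeightedHomogeneous mem_HW)
open Vale.Agent.P181.SZ (nn PT tl)
open Vale.Agent.P181.O2
open Vale.Agent.P181.SZR5b (dl dl_apply dl_X_self dl_X_ne dl_prod_zero colW weight_colW col_iff rc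
  rc_inj HW_rename col_rename)

section gen

lemma weight_fin {α ι : Type} [Fintype α] (g : α → ι → ℕ) (v : α →₀ ℕ) (i : ι) :
    Finsupp.weight g v i = ∑ p, v p * g p i := by
  have h := Finsupp.sum_fintype v (fun p c => c • g p) (fun p => zero_smul ℕ (g p))
  rw [Finsupp.weight_apply, h, Finset.sum_apply]
  rfl

/-- An algebra homomorphism which maps the variables to homogeneous elements. -/
lemma wh_hom {α β N : Type} [AddCommMonoid N] {g : α → N} {w : β → N}
    (φ : MvPolynomial α ℂ →ₐ[ℂ] MvPolynomial β ℂ)
    (h : ∀ x, IsWeightedHomogeneous w (φ (X x)) (g x)) {f : MvPolynomial α ℂ} {d : N}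
    (hf : IsWeightedHomogeneous g f d) : IsWeightedHomogeneous w (φ f) d := by
  rw [f.as_sum, map_sum, ← mem_weightedHomogeneousSubmodule]
  apply Submodule.sum_mem
  intro v hv
  rw [mem_weightedHomogeneousSubmodule]
  have h1 := hf (mem_support_iff.1 hv)
  rw [monomial_eq, map_mul, map_finsuppProd, Finsupp.prod]
  have h2 : IsWeightedHomogeneous w (∏ x ∈ v.support, φ (X x ^ v x))
      (∑ x ∈ v.support, v x • g x) := by
    apply IsWeightedHomogeneous.prod
    intro x _
    rw [map_pow]
    exact (h x).pow _
  have h3 : ∑ x ∈ v.support, v x • g x = d := by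
    rw [← h1, Finsupp.weight_apply]
    rfl
  rw [h3] at h2
  have h4 : φ (C (coeff v f)) = C (coeff v f) := by
    rw [← algebraMap_eq, AlgHom.commutes, algebraMap_eq]
  rw [h4]
  have h5 := (isWeightedHomogeneous_C w (coeff v f)).mul h2
  rwa [zero_add] at h5

lemma der_hom_zero {α β : Type} (D : Derivation ℂ (MvPolynomial β ℂ) (MvPolynomial β ℂ))
    (φ : MvPolynomial α ℂ →ₐ[ℂ] MvPolynomial β ℂ) (h : ∀ p, D (φ (X p)) = 0)
    (P : MvPolynomial α ℂ) : D (φ P) = 0 := by
  induction P using MvPolynomial.induction_on with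
  | C a => rw [← algebraMap_eq, AlgHom.commutes, Derivation.map_algebraMap]
  | add p q hp hq => rw [map_add, map_add, hp, hq, add_zero]
  | mul_X p i hp => rw [map_mul, Derivation.leibniz, hp, h, smul_zero, smul_zero, add_zero]

lemma der_hom {α β : Type} (D : Derivation ℂ (MvPolynomial β ℂ) (MvPolynomial β ℂ))
    (E : Derivation ℂ (MvPolynomial α ℂ) (MvPolynomial α ℂ))
    (φ : MvPolynomial α ℂ →ₐ[ℂ] MvPolynomial β ℂ) (h : ∀ p, D (φ (X p)) = φ (E (X p)))
    (P : MvPolynomial α ℂ) : D (φ P) = φ (E P) := by
  induction P using MvPolynomial.induction_on with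
  | C a => rw [← algebraMap_eq, AlgHom.commutes, Derivation.map_algebraMap,
      Derivation.map_algebraMap, map_zero]
  | add p q hp hq => rw [map_add, map_add, hp, hq, map_add, map_add]
  | mul_X p i hp =>
    rw [map_mul, Derivation.leibniz, hp, h, Derivation.leibniz, map_add]
    simp only [smul_eq_mul, map_mul]

end gen

variable {m : ℕ} {σ : Type} [Fintype σ] [DecidableEq σ]

/-- The substitution `Y ↦ z_0 Y_u - z_u Y_0`. -/
noncomputable def sb (m : ℕ) (σ : Type) : MvPolynomial (Fin m × Option σ) ℂ →ₐ[ℂ]
    MvPolynomial (Fin (m + 1) × Option (Option σ)) ℂ :=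
  aeval fun p => X (0, none) * X (p.1.succ, some p.2) - X (p.1.succ, none) * X (0, some p.2)

omit [Fintype σ] [DecidableEq σ] in
lemma sb_X (p : Fin m × Option σ) : sb m σ (X p) =
    X (0, none) * X (p.1.succ, some p.2) - X (p.1.succ, none) * X (0, some p.2) := by
  rw [sb, aeval_X]

/-- The monomial in row zero. -/
noncomputable def mn (m : ℕ) (l : σ → ℕ) : MvPolynomial (Fin (m + 1) × Option (Option σ)) ℂ :=
  ∏ j, X (0, some (some j)) ^ l j

/-- The polynomial of `P`. -/
noncomputable def FF (r : ℕ) (l : σ → ℕ) (P : MvPolynomial (Fin m × Option σ) ℂ) :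
    MvPolynomial (Fin (m + 1) × Option (Option σ)) ℂ := X (0, none) ^ r * mn m l * sb m σ P

omit [DecidableEq σ] in
lemma FF_rowOp {tau : Fin m → ℕ} (r : ℕ) (l : σ → ℕ) {P : MvPolynomial (Fin m × Option σ) ℂ}
    (hP : P ∈ HW m (Option σ) tau) (s i : Fin (m + 1)) (h : s < i) :
    rowOp s i (FF r l P) = 0 := by
  have hi : (0 : Fin (m + 1)) ≠ i := by
    rintro rfl
    exact absurd h (Fin.not_lt_zero s)
  obtain ⟨u, rfl⟩ := Fin.exists_succ_eq.2 hi.symm
  have h1 : dl s u.succ (X (0, (none : Option (Option σ))) ^ r * mn m l) = 0 := by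
    have h2 : dl s u.succ (X ((0 : Fin (m + 1)), (none : Option (Option σ))) ^ r) = 0 := by
      rw [Derivation.leibniz_pow, dl_X_ne _ _ _ hi, smul_zero, smul_zero]
    have h3 : dl s u.succ (mn m l) = 0 := by
      apply dl_prod_zero
      intro j _
      rw [Derivation.leibniz_pow, dl_X_ne _ _ _ hi, smul_zero, smul_zero]
    rw [Derivation.leibniz, h2, h3, smul_zero, smul_zero, add_zero]
  have h4 : dl s u.succ (sb m σ P) = 0 := by
    rcases Fin.eq_zero_or_eq_succ s with rfl | ⟨s', rfl⟩
    · apply der_hom_zero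
      rintro ⟨k, c⟩
      rw [sb_X, map_sub, Derivation.leibniz, Derivation.leibniz, dl_X_ne _ _ _ hi,
        dl_X_ne _ _ _ hi, smul_zero, smul_zero, add_zero, zero_add]
      by_cases hk : k = u
      · subst hk
        rw [dl_X_self, dl_X_self, smul_eq_mul, smul_eq_mul]
        ring
      · rw [dl_X_ne _ _ _ (fun h' => hk (Fin.succ_injective _ h')),
          dl_X_ne _ _ _ (fun h' => hk (Fin.succ_injective _ h')), smul_zero, smul_zero, sub_zero]
    · have h5 : dl s'.succ u.succ (sb m σ P) = sb m σ (dl s' u P) := by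
        apply der_hom
        rintro ⟨k, c⟩
        rw [sb_X, map_sub, Derivation.leibniz, Derivation.leibniz, dl_X_ne _ _ _ hi,
          dl_X_ne _ _ _ hi, smul_zero, smul_zero, add_zero, zero_add]
        by_cases hk : k = u
        · subst hk
          rw [dl_X_self, dl_X_self, dl_X_self, sb_X, smul_eq_mul, smul_eq_mul]
          ring
        · rw [dl_X_ne _ _ _ (fun h' => hk (Fin.succ_injective _ h')),
            dl_X_ne _ _ _ (fun h' => hk (Fin.succ_injective _ h')), dl_X_ne _ _ _ hk,
            smul_zero, smul_zero, sub_zero, map_zero]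
      rw [h5, dl_apply, (mem_HW.1 hP).2 s' u (Fin.succ_lt_succ_iff.1 h), map_zero]
  rw [← dl_apply, FF, Derivation.leibniz, h1, h4, smul_zero, smul_zero, add_zero]

/-- `z · ∂_v` as a derivation. -/
noncomputable def zd (m : ℕ) (σ : Type) :
    Derivation ℂ (MvPolynomial (Fin m × Option (Option σ)) ℂ)
      (MvPolynomial (Fin m × Option (Option σ)) ℂ) :=
  ∑ i, (X (i, none) : MvPolynomial (Fin m × Option (Option σ)) ℂ) • pderiv (i, some none)

omit [Fintype σ] [DecidableEq σ] in
lemma zd_apply (f : MvPolynomial (Fin m × Option (Option σ)) ℂ) : zd m σ f = zv f := by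
  rw [zd, zv]
  have h : ∀ S : Finset (Fin m), (∑ i ∈ S,
      (X (i, none) : MvPolynomial (Fin m × Option (Option σ)) ℂ) •
      pderiv (R := ℂ) (i, some none)) f = ∑ i ∈ S, X (i, none) * pderiv (i, some none) f := by
    classical
    intro S
    induction S using Finset.induction_on with
    | empty => rfl
    | insert a S ha ih =>
      rw [Finset.sum_insert ha, Finset.sum_insert ha, Derivation.add_apply, ih]
      rfl
  exact h _

omit [Fintype σ] [DecidableEq σ] in
lemma zd_X_self (i : Fin m) :
    zd m σ (X (i, some none)) = X (i, none) := by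
  rw [zd_apply, zv, Finset.sum_eq_single i]
  · simp
  · intro k _ hk
    rw [pderiv_X_of_ne (by intro h; exact hk (Prod.ext_iff.1 h).1.symm), mul_zero]
  · intro h
    exact absurd (Finset.mem_univ _) h

omit [Fintype σ] [DecidableEq σ] in
lemma zd_X_ne (i : Fin m) (c : Option (Option σ)) (hc : c ≠ some none) :
    zd m σ (X (i, c)) = 0 := by
  rw [zd_apply, zv]
  apply Finset.sum_eq_zero
  intro k _
  rw [pderiv_X_of_ne (by intro h'; exact hc (Prod.ext_iff.1 h').2), mul_zero]

omit [DecidableEq σ] in
lemma FF_zv (r : ℕ) (l : σ → ℕ) (P : MvPolynomial (Fin m × Option σ) ℂ) :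
    zv (FF r l P) = 0 := by
  have h1 : zd (m + 1) σ (X (0, (none : Option (Option σ))) ^ r * mn m l) = 0 := by
    have h2 : zd (m + 1) σ (X ((0 : Fin (m + 1)), (none : Option (Option σ))) ^ r) = 0 := by
      rw [Derivation.leibniz_pow, zd_X_ne _ _ (by simp), smul_zero, smul_zero]
    have h3 : zd (m + 1) σ (mn m l) = 0 := by
      apply dl_prod_zero
      intro j _
      rw [Derivation.leibniz_pow, zd_X_ne _ _ (by simp), smul_zero, smul_zero]
    rw [Derivation.leibniz, h2, h3, smul_zero, smul_zero, add_zero]
  have h4 : zd (m + 1) σ (sb m σ P) = 0 := by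
    apply der_hom_zero
    rintro ⟨k, c⟩
    rw [sb_X, map_sub, Derivation.leibniz, Derivation.leibniz,
      zd_X_ne (0 : Fin (m + 1)) none (by simp), zd_X_ne k.succ none (by simp),
      smul_zero, smul_zero, add_zero, add_zero]
    rcases c with _ | c
    · rw [zd_X_self, zd_X_self, smul_eq_mul, smul_eq_mul]
      ring
    · rw [zd_X_ne _ _ (by simp), zd_X_ne _ _ (by simp), smul_zero, smul_zero, sub_zero]
  rw [← zd_apply, FF, Derivation.leibniz, h1, h4, smul_zero, smul_zero, add_zero]


/-- The column degrees. -/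
def DD (a : ℕ) (d : σ → ℕ) : Option (Option σ) → ℕ
  | none => a
  | some none => 2
  | some (some j) => d j

omit [DecidableEq σ] in
lemma FF_row {tau : Fin m → ℕ} {r N : ℕ} {l : σ → ℕ} {P : MvPolynomial (Fin m × Option σ) ℂ}
    (hP : P ∈ HW m (Option σ) tau) (hN : ∑ j, l j = N) :
    IsWeightedHomogeneous (rowW (m + 1) (Option (Option σ))) (FF r l P)
      (Fin.cons (r + N + ∑ i, tau i) tau) := by
  let g : Fin m × Option σ → Fin (m + 1) → ℕ := fun p => Pi.single 0 1 + Pi.single p.1.succ 1
  have hX : ∀ p : Fin (m + 1) × Option (Option σ),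
      IsWeightedHomogeneous (rowW (m + 1) (Option (Option σ))) (X p : MvPolynomial _ ℂ)
        (Pi.single p.1 1) := fun p => isWeightedHomogeneous_X _ _ _
  have h1 : IsWeightedHomogeneous (rowW (m + 1) (Option (Option σ))) (sb m σ P)
      (Fin.cons (∑ i, tau i) tau) := by
    apply wh_hom (g := g)
    · intro p
      rw [sb_X, ← mem_weightedHomogeneousSubmodule]
      apply Submodule.sub_mem
      · exact (hX (0, none)).mul (hX (p.1.succ, some p.2))
      · have h2 : (Pi.single p.1.succ 1 + Pi.single 0 1 : Fin (m + 1) → ℕ) = g p :=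
          add_comm _ _
        rw [← h2]
        exact (hX (p.1.succ, none)).mul (hX (0, some p.2))
    · intro v hv
      have h3 := (mem_HW.1 hP).1 v hv
      funext i
      rw [weight_fin, Fintype.sum_prod_type]
      rcases Fin.eq_zero_or_eq_succ i with rfl | ⟨i, rfl⟩
      · rw [Fin.cons_zero]
        refine Finset.sum_congr rfl fun k _ => ?_
        rw [← h3 k]
        refine Finset.sum_congr rfl fun c _ => ?_
        simp [g]
      · rw [Fin.cons_succ, ← h3 i, Finset.sum_eq_single i]
        · refine Finset.sum_congr rfl fun c _ => ?_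
          simp [g]
        · intro k _ hk
          apply Finset.sum_eq_zero
          intro c _
          have : (i.succ : Fin (m + 1)) ≠ k.succ := fun h => hk (Fin.succ_injective _ h).symm
          simp [g, this]
        · intro h
          exact absurd (Finset.mem_univ _) h
  have h2 : IsWeightedHomogeneous (rowW (m + 1) (Option (Option σ))) (mn m l)
      (∑ j, l j • (Pi.single 0 1 : Fin (m + 1) → ℕ)) := by
    apply IsWeightedHomogeneous.prod
    intro j _
    exact (hX (0, some (some j))).pow _
  have h3 := (((hX (0, none)).pow r).mul h2).mul h1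
  have h4 : r • (Pi.single ((0 : Fin (m + 1)), (none : Option (Option σ))).1 1 : Fin (m + 1) → ℕ) +
      ∑ j, l j • (Pi.single 0 1 : Fin (m + 1) → ℕ) + Fin.cons (∑ i, tau i) tau =
      Fin.cons (r + N + ∑ i, tau i) tau := by
    rw [← Finset.sum_smul, hN]
    funext i
    rcases Fin.eq_zero_or_eq_succ i with rfl | ⟨i, rfl⟩
    · simp
    · simp
  rw [h4] at h3
  exact h3

lemma FF_col {tau : Fin m → ℕ} {r a : ℕ} {l : σ → ℕ} {d u : σ → ℕ}
    {P : MvPolynomial (Fin m × Option σ) ℂ}
    (hP : P ∈ HW m (Option σ) tau) (hP2 : ∀ v, coeff v P ≠ 0 → ∑ i, v (i, none) = 2)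
    (hP3 : ∀ v, coeff v P ≠ 0 → ∀ j, ∑ i, v (i, some j) = u j)
    (ha : r + ∑ i, tau i = a) (hd : ∀ j, l j + u j = d j) :
    IsWeightedHomogeneous (colW (m + 1) (Option (Option σ))) (FF r l P) (DD a d) := by
  let g : Fin m × Option σ → Option (Option σ) → ℕ := fun p =>
    Pi.single none 1 + Pi.single (some p.2) 1
  have hX : ∀ p : Fin (m + 1) × Option (Option σ),
      IsWeightedHomogeneous (colW (m + 1) (Option (Option σ))) (X p : MvPolynomial _ ℂ)
        (Pi.single p.2 1) := fun p => isWeightedHomogeneous_X _ _ _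
  have h1 : IsWeightedHomogeneous (colW (m + 1) (Option (Option σ))) (sb m σ P)
      (DD (∑ i, tau i) u) := by
    apply wh_hom (g := g)
    · intro p
      rw [sb_X, ← mem_weightedHomogeneousSubmodule]
      apply Submodule.sub_mem
      · exact (hX (0, none)).mul (hX (p.1.succ, some p.2))
      · exact (hX (p.1.succ, none)).mul (hX (0, some p.2))
    · intro v hv
      have h3 := (mem_HW.1 hP).1 v hv
      funext c
      rw [weight_fin]
      rcases c with _ | _ | j
      · rw [Fintype.sum_prod_type, DD]
        refine Finset.sum_congr rfl fun k _ => ?_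
        rw [← h3 k]
        refine Finset.sum_congr rfl fun c _ => ?_
        simp [g]
      · rw [Fintype.sum_prod_type_right, DD, ← hP2 v hv, Finset.sum_eq_single none]
        · refine Finset.sum_congr rfl fun c _ => ?_
          simp [g]
        · intro k _ hk
          apply Finset.sum_eq_zero
          intro c _
          have : (some none : Option (Option σ)) ≠ some k := fun h =>
            hk (Option.some_injective _ h).symm
          simp [g, this]
        · intro h
          exact absurd (Finset.mem_univ _) h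
      · rw [Fintype.sum_prod_type_right, DD, ← hP3 v hv j, Finset.sum_eq_single (some j)]
        · refine Finset.sum_congr rfl fun c _ => ?_
          simp [g]
        · intro k _ hk
          apply Finset.sum_eq_zero
          intro c _
          have : (some (some j) : Option (Option σ)) ≠ some k := fun h =>
            hk (Option.some_injective _ h).symm
          simp [g, this]
        · intro h
          exact absurd (Finset.mem_univ _) h
  have h2 : IsWeightedHomogeneous (colW (m + 1) (Option (Option σ))) (mn m l)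
      (∑ j, l j • (Pi.single (some (some j)) 1 : Option (Option σ) → ℕ)) := by
    apply IsWeightedHomogeneous.prod
    intro j _
    exact (hX (0, some (some j))).pow _
  have h3 := (((hX (0, none)).pow r).mul h2).mul h1
  have h4 : r • (Pi.single ((0 : Fin (m + 1)), (none : Option (Option σ))).2 1 :
      Option (Option σ) → ℕ) +
      ∑ j, l j • (Pi.single (some (some j)) 1 : Option (Option σ) → ℕ) + DD (∑ i, tau i) u =
      DD a d := by
    funext c
    rw [Pi.add_apply, Pi.add_apply, Finset.sum_apply]
    rcases c with _ | _ | j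
    · simp [DD, ha]
    · simp [DD]
    · rw [Finset.sum_eq_single j]
      · simp [DD, hd]
      · intro k _ hk
        have : (some (some j) : Option (Option σ)) ≠ some (some k) := fun h =>
          hk (Option.some_injective _ (Option.some_injective _ h)).symm
        simp [this]
      · intro h
        exact absurd (Finset.mem_univ _) h
  rw [h4] at h3
  exact h3

/-- The columns `z`, `v` stay. -/
def oe (e : σ → σ) : Option (Option σ) → Option (Option σ) := fun c => c.map (Option.map e)

omit [Fintype σ] [DecidableEq σ] in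
lemma oe_inj {e : σ → σ} (he : Function.Injective e) : Function.Injective (oe e) :=
  Option.map_injective (Option.map_injective he)

omit [Fintype σ] [DecidableEq σ] in
lemma zv_rename {e : σ → σ} (he : Function.Injective e)
    (f : MvPolynomial (Fin m × Option (Option σ)) ℂ) :
    zv (rename (rc m (oe e)) f) = rename (rc m (oe e)) (zv f) := by
  rw [zv, zv, map_sum]
  refine Finset.sum_congr rfl fun i _ => ?_
  have h := pderiv_rename (R := ℂ) (rc_inj (n := m) (oe_inj he)) (i, some none) f
  rw [map_mul, ← h, rename_X]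
  rfl

/-- The permutations which preserve the sizes. -/
noncomputable def GG (d : σ → ℕ) : Finset (Equiv.Perm σ) :=
  Finset.univ.filter fun e => ∀ j, d (e j) = d j

/-- The symmetrization. -/
noncomputable def SS (m : ℕ) (d : σ → ℕ) : MvPolynomial (Fin m × Option (Option σ)) ℂ →ₗ[ℂ]
    MvPolynomial (Fin m × Option (Option σ)) ℂ :=
  ∑ e ∈ GG d, (rename (rc m (oe e)) : MvPolynomial (Fin m × Option (Option σ)) ℂ →ₐ[ℂ]
    MvPolynomial (Fin m × Option (Option σ)) ℂ).toLinearMap

lemma SS_apply (d : σ → ℕ) (f : MvPolynomial (Fin m × Option (Option σ)) ℂ) :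
    SS m d f = ∑ e ∈ GG d, rename (rc m (oe e)) f := by
  rw [SS, LinearMap.sum_apply]
  rfl

lemma SS_mem {m a : ℕ} {d : σ → ℕ} {mu : Fin m → ℕ}
    {f : MvPolynomial (Fin m × Option (Option σ)) ℂ} (h1 : f ∈ HW m (Option (Option σ)) mu)
    (h2 : IsWeightedHomogeneous (colW m (Option (Option σ))) f (DD a d)) (h3 : zv f = 0) :
    SS m d f ∈ PG m σ d a mu := by
  rw [SS_apply]
  have hmem : ∀ e ∈ GG d, ∀ j, d (e j) = d j := fun e he => (Finset.mem_filter.1 he).2
  have k1 : ∑ e ∈ GG d, rename (rc m (oe e)) f ∈ HW m (Option (Option σ)) mu :=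
    Submodule.sum_mem _ fun e _ => HW_rename _ h1
  have k2 : ∀ v, coeff v (∑ e ∈ GG d, rename (rc m (oe e)) f) ≠ 0 →
      ∀ c, ∑ i, v (i, c) = DD a d c := by
    rw [col_iff, ← mem_weightedHomogeneousSubmodule]
    apply Submodule.sum_mem
    intro e he
    rw [mem_weightedHomogeneousSubmodule, ← col_iff]
    apply col_rename (d := DD a d) (oe_inj e.injective)
    · intro c
      rcases c with _ | _ | j
      · rfl
      · rfl
      · exact hmem e he j
    · intro c hc
      exfalso
      apply hc
      rcases c with _ | _ | j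
      · exact ⟨none, rfl⟩
      · exact ⟨some none, rfl⟩
      · refine ⟨some (some (e.symm j)), ?_⟩
        simp [oe]
    · exact col_iff.2 h2
  have k4 : zv (∑ e ∈ GG d, rename (rc m (oe e)) f) = 0 := by
    rw [← zd_apply, map_sum]
    apply Finset.sum_eq_zero
    intro e _
    rw [zd_apply, zv_rename e.injective, h3, map_zero]
  refine ⟨k1, fun v hv => ⟨k2 v hv none, k2 v hv (some none), fun j => k2 v hv (some (some j))⟩,
    fun e he => ?_, k4⟩
  have he' : e ∈ GG d := Finset.mem_filter.2 ⟨Finset.mem_univ _, he⟩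
  rw [map_sum]
  refine Finset.sum_bij (fun g _ => e * g) ?_ ?_ ?_ ?_
  · intro g hg
    refine Finset.mem_filter.2 ⟨Finset.mem_univ _, fun j => ?_⟩
    rw [Equiv.Perm.mul_apply, he, hmem g hg]
  · intro g _ g' _ h
    exact mul_left_cancel h
  · intro g hg
    refine ⟨e⁻¹ * g, Finset.mem_filter.2 ⟨Finset.mem_univ _, fun j => ?_⟩, ?_⟩
    · have h5 := he (e⁻¹ (g j))
      have h6 : e (e⁻¹ (g j)) = g j := by
        rw [← Equiv.Perm.mul_apply, mul_inv_cancel]
        rfl
      rw [h6] at h5
      rw [Equiv.Perm.mul_apply, ← h5, hmem g hg]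
    · exact mul_inv_cancel_left e g
  · intro g _
    rw [rename_rename]
    congr 1
    congr 1
    funext p
    obtain ⟨i, c⟩ := p
    rcases c with _ | _ | j
    · rfl
    · rfl
    · rfl

/-- The evaluation `z = e_0`, `v_0 = 0`. -/
noncomputable def ev (m : ℕ) (σ : Type) : MvPolynomial (Fin (m + 1) × Option (Option σ)) ℂ →ₐ[ℂ]
    MvPolynomial (Fin (m + 1) × Option σ) ℂ :=
  aeval fun p => match p.2 with
    | none => if p.1 = 0 then 1 else 0
    | some none => if p.1 = 0 then 0 else X (p.1, none)
    | some (some j) => X (p.1, some j)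

/-- Rows `u ↦ u + 1`. -/
def su (m : ℕ) (τ : Type) : Fin m × τ → Fin (m + 1) × τ := fun p => (p.1.succ, p.2)

lemma su_inj (m : ℕ) (τ : Type) : Function.Injective (su m τ) := by
  rintro ⟨i, c⟩ ⟨i', c'⟩ h
  have h1 := Prod.ext_iff.1 h
  exact Prod.ext (Fin.succ_injective _ h1.1) h1.2

omit [Fintype σ] [DecidableEq σ] in
lemma ev_sb (P : MvPolynomial (Fin m × Option σ) ℂ) :
    ev m σ (sb m σ P) = rename (su m (Option σ)) P := by
  have h : (ev m σ).comp (sb m σ) = rename (su m (Option σ)) := by
    apply algHom_ext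
    rintro ⟨u, c⟩
    rw [AlgHom.comp_apply, sb_X, rename_X, map_sub, map_mul, map_mul, su]
    rcases c with _ | j
    · simp [ev, Fin.succ_ne_zero]
    · simp [ev, Fin.succ_ne_zero]
  exact congrArg (fun φ => φ P) h

/-- The monomial in row zero. -/
noncomputable def mn' (m : ℕ) (l : σ → ℕ) : MvPolynomial (Fin (m + 1) × Option σ) ℂ :=
  ∏ j, X (0, some j) ^ l j

omit [DecidableEq σ] in
lemma ev_FF (r : ℕ) (l : σ → ℕ) (P : MvPolynomial (Fin m × Option σ) ℂ) :
    ev m σ (FF r l P) = mn' m l * rename (su m (Option σ)) P := by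
  have h1 : ev m σ (X (0, none)) = 1 := by simp [ev]
  have h2 : ev m σ (mn m l) = mn' m l := by
    rw [mn, mn', map_prod]
    refine Finset.prod_congr rfl fun j _ => ?_
    rw [map_pow]
    simp [ev]
  rw [FF, map_mul, map_mul, map_pow, h1, one_pow, one_mul, h2, ev_sb]

omit [Fintype σ] [DecidableEq σ] in
lemma ev_rename (e : σ → σ) (f : MvPolynomial (Fin (m + 1) × Option (Option σ)) ℂ) :
    ev m σ (rename (rc (m + 1) (oe e)) f) = rename (rc (m + 1) (Option.map e)) (ev m σ f) := by
  have h : (ev m σ).comp (rename (rc (m + 1) (oe e))) =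
      (rename (rc (m + 1) (Option.map e))).comp (ev m σ) := by
    apply algHom_ext
    rintro ⟨u, c⟩
    rw [AlgHom.comp_apply, AlgHom.comp_apply, rename_X, rc, oe]
    rcases c with _ | _ | j
    · by_cases hu : u = 0
      · simp [ev, hu]
      · simp [ev, hu]
    · by_cases hu : u = 0
      · simp [ev, hu]
      · simp [ev, hu, rc]
    · simp [ev, rc]
  exact congrArg (fun φ => φ f) h

/-- The weight of the degrees in row zero. -/
def qw (m : ℕ) (σ : Type) [DecidableEq σ] : Fin (m + 1) × Option σ → (σ → ℕ) := fun p =>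
  match p.2 with
    | none => 0
    | some j => if p.1 = 0 then Pi.single j 1 else 0

lemma qw_H (l : σ → ℕ) (P : MvPolynomial (Fin m × Option σ) ℂ) :
    IsWeightedHomogeneous (qw m σ) (mn' m l * rename (su m (Option σ)) P) l := by
  have h1 : IsWeightedHomogeneous (qw m σ) (mn' m l) (∑ j, l j • (Pi.single j 1 : σ → ℕ)) := by
    apply IsWeightedHomogeneous.prod
    intro j _
    have h := isWeightedHomogeneous_X ℂ (qw m σ) ((0 : Fin (m + 1)), some j)
    have h' : qw m σ ((0 : Fin (m + 1)), some j) = Pi.single j 1 := by simp [qw]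
    rw [h'] at h
    exact h.pow _
  have h2 : ∑ j, l j • (Pi.single j 1 : σ → ℕ) = l := by
    funext k
    rw [Finset.sum_apply, Finset.sum_eq_single k]
    · simp
    · intro j _ hj
      simp [Pi.single_eq_of_ne (Ne.symm hj)]
    · intro h
      exact absurd (Finset.mem_univ _) h
  have h3 : IsWeightedHomogeneous (qw m σ) (rename (su m (Option σ)) P) 0 := by
    apply Vale.Agent.P181.SZR5b.wh_rename (w := fun _ => (0 : σ → ℕ))
    · rintro ⟨i, c⟩
      rcases c with _ | j
      · rfl
      · simp [qw, su, Fin.succ_ne_zero]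
    · intro v _
      rw [Finsupp.weight_apply]
      apply Finset.sum_eq_zero
      intro x _
      exact smul_zero _
  have h4 := h1.mul h3
  rw [h2, add_zero] at h4
  exact h4

omit [DecidableEq σ] in
lemma rename_H (e : Equiv.Perm σ) (l : σ → ℕ) (P : MvPolynomial (Fin m × Option σ) ℂ) :
    rename (rc (m + 1) (Option.map e)) (mn' m l * rename (su m (Option σ)) P) =
      mn' m (fun j => l (e.symm j)) *
        rename (su m (Option σ)) (rename (rc m (Option.map e)) P) := by
  rw [map_mul, rename_rename, rename_rename]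
  congr 1
  · rw [mn', mn', map_prod]
    refine Fintype.prod_equiv e _ _ fun j => ?_
    rw [map_pow, rename_X, rc, Equiv.symm_apply_apply]
    rfl

omit [DecidableEq σ] in
lemma FF_add (r : ℕ) (l : σ → ℕ) (P Q : MvPolynomial (Fin m × Option σ) ℂ) :
    FF r l (P + Q) = FF r l P + FF r l Q := by
  rw [FF, FF, FF, map_add, mul_add]

omit [DecidableEq σ] in
lemma FF_smul (r : ℕ) (l : σ → ℕ) (c : ℂ) (P : MvPolynomial (Fin m × Option σ) ℂ) :
    FF r l (c • P) = c • FF r l P := by
  rw [FF, FF, map_smul, mul_smul_comm]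

omit [DecidableEq σ] in
lemma mn'_ne (l : σ → ℕ) : mn' m l ≠ 0 := by
  rw [mn', Finset.prod_ne_zero_iff]
  intro j _
  exact pow_ne_zero _ (X_ne_zero _)

instance finiteDimensional_PG (m : ℕ) (τ : Type) [Fintype τ] (d : τ → ℕ) (a : ℕ)
    (mu : Fin m → ℕ) : FiniteDimensional ℂ (PG m τ d a mu) :=
  Submodule.finiteDimensional_of_le (S₂ := HW m (Option (Option τ)) mu) fun _ h => h.1

/-- **(B2)** for one family of labels. -/
theorem fam {ι : Type} [Fintype ι] (a N : ℕ) (mu : Fin (m + 1) → ℕ) (d : σ → ℕ)
    (l : ι → σ → ℕ × ℕ) (hd : ∀ U j, (l U j).1 + (l U j).2 = d j)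
    (hN : ∀ U, ∑ j, (l U j).1 = N) (ha : ∑ i, tl mu i ≤ a) (hmu : mu 0 = a + N)
    (hl : ∀ U U', Finset.univ.val.map (l U) = Finset.univ.val.map (l U') → U = U') :
    ∑ U, Module.finrank ℂ (PL m (Option σ) (fun c => c.elim (N + 1, 2) (l U)) (tl mu)) ≤
      Module.finrank ℂ (PG (m + 1) σ d a mu) := by
  classical
  set t := ∑ i, tl mu i with ht
  have hmem : ∀ U (P : MvPolynomial (Fin m × Option σ) ℂ),
      P ∈ PL m (Option σ) (fun c => c.elim (N + 1, 2) (l U)) (tl mu) →
      SS (m + 1) d (FF (a - t) (fun j => (l U j).1) P) ∈ PG (m + 1) σ d a mu := by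
    intro U P hP
    obtain ⟨hP1, hP2, hP3⟩ := H43.mem_PL.1 hP
    apply SS_mem
    · rw [mem_HW_iff_isWeightedHomogeneous]
      refine ⟨?_, fun s i h => FF_rowOp _ _ hP1 s i h⟩
      have h1 := FF_row (r := a - t) (l := fun j => (l U j).1) hP1 (hN U)
      have h2 : (Fin.cons (a - t + N + ∑ i, tl mu i) (tl mu) : Fin (m + 1) → ℕ) = mu := by
        funext i
        rcases Fin.eq_zero_or_eq_succ i with rfl | ⟨i, rfl⟩
        · rw [Fin.cons_zero, hmu]
          omega
        · rfl
      rw [h2] at h1
      exact h1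
    · exact FF_col (u := fun j => (l U j).2) hP1 (fun v hv => hP2 v hv none)
        (fun v hv j => hP2 v hv (some j)) (by omega) (hd U)
    · exact FF_zv _ _ _
  let Φ : (∀ U, PL m (Option σ) (fun c => c.elim (N + 1, 2) (l U)) (tl mu)) →ₗ[ℂ]
      PG (m + 1) σ d a mu :=
    { toFun := fun x => ⟨∑ U, SS (m + 1) d (FF (a - t) (fun j => (l U j).1) (x U).1),
        Submodule.sum_mem _ fun U _ => hmem U _ (x U).2⟩
      map_add' := by
        intro x y
        apply Subtype.ext
        change ∑ U, SS (m + 1) d (FF (a - t) (fun j => (l U j).1) ((x U).1 + (y U).1)) =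
          ∑ U, SS (m + 1) d (FF (a - t) (fun j => (l U j).1) (x U).1) +
          ∑ U, SS (m + 1) d (FF (a - t) (fun j => (l U j).1) (y U).1)
        rw [← Finset.sum_add_distrib]
        exact Finset.sum_congr rfl fun U _ => by rw [FF_add, map_add]
      map_smul' := by
        intro c x
        apply Subtype.ext
        change ∑ U, SS (m + 1) d (FF (a - t) (fun j => (l U j).1) (c • (x U).1)) =
          c • ∑ U, SS (m + 1) d (FF (a - t) (fun j => (l U j).1) (x U).1)
        rw [Finset.smul_sum]
        exact Finset.sum_congr rfl fun U _ => by rw [FF_smul, map_smul] }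
  have hinj : Function.Injective Φ := by
    rw [← LinearMap.ker_eq_bot, LinearMap.ker_eq_bot']
    intro x hx
    funext U0
    apply Subtype.ext
    change (x U0).1 = 0
    have h1 : ∑ U, SS (m + 1) d (FF (a - t) (fun j => (l U j).1) (x U).1) = 0 :=
      congrArg Subtype.val hx
    have h2 : ∑ U, ∑ e ∈ GG d, mn' m (fun j => (l U (e.symm j)).1) *
        rename (su m (Option σ)) (rename (rc m (Option.map e)) (x U).1) = 0 := by
      have h3 := congrArg (ev m σ) h1
      rw [map_zero, map_sum] at h3
      rw [← h3]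
      refine Finset.sum_congr rfl fun U _ => ?_
      rw [SS_apply, map_sum]
      refine Finset.sum_congr rfl fun e _ => ?_
      rw [ev_rename, ev_FF, rename_H]
    set H0 := mn' m (fun j => (l U0 j).1) * rename (su m (Option σ)) (x U0).1 with hH0
    have h4 : ∀ U, ∀ e ∈ GG d, weightedHomogeneousComponent (qw m σ) (fun j => (l U0 j).1)
        (mn' m (fun j => (l U (e.symm j)).1) *
          rename (su m (Option σ)) (rename (rc m (Option.map e)) (x U).1)) =
        if ∀ j, (l U (e.symm j)).1 = (l U0 j).1 then H0 else 0 := by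
      intro U e he
      have he' : ∀ j, d (e j) = d j := (Finset.mem_filter.1 he).2
      by_cases hc : ∀ j, (l U (e.symm j)).1 = (l U0 j).1
      · rw [if_pos hc]
        have h5 : ∀ j, l U (e.symm j) = l U0 j := by
          intro j
          have k1 := hd U (e.symm j)
          have k2 := hd U0 j
          have k3 := he' (e.symm j)
          rw [Equiv.apply_symm_apply] at k3
          have k4 := hc j
          exact Prod.ext k4 (by omega)
        have h6 : U = U0 := by
          apply hl
          have k1 : Finset.univ.val.map (fun j => l U (e.symm j)) =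
              Finset.univ.val.map (l U) := by
            have k2 : (Finset.univ : Finset σ).val.map e.symm = Finset.univ.val := by
              have := congrArg Finset.val (Finset.map_univ_equiv e.symm)
              rwa [Finset.map_val] at this
            conv_rhs => rw [← k2, Multiset.map_map]
            rfl
          rw [← k1]
          exact Multiset.map_congr rfl fun j _ => h5 j
        subst h6
        have h7 : rename (rc m (Option.map e)) (x U).1 = (x U).1 := by
          have k1 := (H43.mem_PL.1 (x U).2).2.2 (Equiv.optionCongr e) (by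
            intro c
            rcases c with _ | j
            · rfl
            · have k2 := h5 (e j)
              rw [Equiv.symm_apply_apply] at k2
              exact k2.symm)
          exact k1
        have h8 : (fun j => (l U (e.symm j)).1) = fun j => (l U j).1 := funext hc
        rw [h7, h8, ← hH0]
        exact (qw_H _ _).weightedHomogeneousComponent_same
      · rw [if_neg hc]
        apply (qw_H _ _).weightedHomogeneousComponent_ne
        intro h
        exact hc fun j => (congrFun h j).symm
    have h9 := congrArg (weightedHomogeneousComponent (qw m σ) (fun j => (l U0 j).1)) h2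
    rw [map_zero, map_sum] at h9
    have h10 : ∑ U, ∑ e ∈ GG d, (if ∀ j, (l U (e.symm j)).1 = (l U0 j).1 then H0 else 0) = 0 := by
      refine Eq.trans ?_ h9
      refine Finset.sum_congr rfl fun U _ => ?_
      rw [map_sum]
      exact Finset.sum_congr rfl fun e he => (h4 U e he).symm
    rw [← Finset.sum_product', ← Finset.sum_filter, Finset.sum_const, smul_eq_zero] at h10
    rcases h10 with h10 | h10
    · exfalso
      rw [Finset.card_eq_zero] at h10
      have : (U0, (1 : Equiv.Perm σ)) ∈ ((Finset.univ : Finset ι) ×ˢ GG d).filter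
          (fun p => ∀ j, (l p.1 (p.2.symm j)).1 = (l U0 j).1) := by
        refine Finset.mem_filter.2 ⟨Finset.mem_product.2 ⟨Finset.mem_univ _, ?_⟩, fun j => rfl⟩
        exact Finset.mem_filter.2 ⟨Finset.mem_univ _, fun j => rfl⟩
      rw [h10] at this
      exact absurd this (Finset.notMem_empty _)
    · rw [hH0, mul_eq_zero] at h10
      rcases h10 with h10 | h10
      · exact absurd h10 (mn'_ne _)
      · apply rename_injective _ (su_inj m (Option σ))
        rw [h10, map_zero]
  have h := LinearMap.finrank_le_finrank_of_injective hinj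
  have h' : Module.finrank ℂ (∀ U, PL m (Option σ) (fun c => c.elim (N + 1, 2) (l U)) (tl mu)) =
      ∑ U, Module.finrank ℂ (PL m (Option σ) (fun c => c.elim (N + 1, 2) (l U)) (tl mu)) :=
    Module.finrank_pi_fintype ℂ
  rw [← h']
  exact h

open scoped Classical in
theorem b2 : B2 := by
  intro m a mu k _ _ hta ha0
  let σ := Fin k.toList.length
  let d : σ → ℕ := fun j => k.toList.get j
  let T := (US (mu 0 - a) (∑ i, tl mu i - 2)).filter (fun U => szs U = k)
  have hk : Finset.univ.val.map d = k := by
    change Finset.univ.val.map (fun j : Fin k.toList.length => k.toList.get j) = k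
    rw [Fin.univ_val_map, List.ofFn_get, Multiset.coe_toList]
  have hex : ∀ U : {U // U ∈ T}, ∃ l : σ → ℕ × ℕ, Finset.univ.val.map l = U.1 ∧
      ∀ j, (l j).1 + (l j).2 = d j := by
    rintro ⟨U, hU⟩
    have hs : szs U = k := (Finset.mem_filter.1 hU).2
    have h0 : Finset.univ.val.map (fun j : Fin U.toList.length => U.toList.get j) = U :=
      H696.univ_map U
    have h1 : Finset.univ.val.map (fun j : Fin U.toList.length =>
        (U.toList.get j).1 + (U.toList.get j).2) = k := by
      have h2 := congrArg (Multiset.map fun p : ℕ × ℕ => p.1 + p.2) h0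
      rw [Multiset.map_map] at h2
      rw [← hs]
      exact h2
    obtain ⟨e, he⟩ := H43.exists_equiv d (fun j : Fin U.toList.length =>
      (U.toList.get j).1 + (U.toList.get j).2) (by rw [hk, h1])
    refine ⟨fun j => U.toList.get (e j), ?_, fun j => he j⟩
    have k2 : (Finset.univ : Finset σ).val.map e = Finset.univ.val := by
      have := congrArg Finset.val (Finset.map_univ_equiv e)
      rwa [Finset.map_val] at this
    have k3 : Finset.univ.val.map (fun j : σ => U.toList.get (e j)) =
        Finset.univ.val.map (fun j : Fin U.toList.length => U.toList.get j) := by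
      conv_rhs => rw [← k2, Multiset.map_map]
      rfl
    exact k3.trans h0
  choose l hl1 hl2 using hex
  have hN : ∀ U : {U // U ∈ T}, (U.1.map Prod.fst).sum = mu 0 - a := fun U =>
    (Finset.mem_filter.1 (Finset.mem_filter.1 U.2).1).2.2.1
  have h := fam (ι := {U // U ∈ T}) a (mu 0 - a) mu d l hl2 (by
    intro U
    have h1 := hN U
    rw [← hl1 U, Multiset.map_map] at h1
    exact h1) hta (by omega) (by
    intro U U' h
    rw [hl1, hl1] at h
    exact Subtype.ext h)
  have h2 : ∀ U : {U // U ∈ T}, cc2 m (tl mu) U.1 =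
      Module.finrank ℂ (PL m (Option σ) (fun c => c.elim (mu 0 - a + 1, 2) (l U)) (tl mu)) := by
    intro U
    rw [H696.cc_of H43.transL, cc2, hN U]
    congr 1
    have h3 : (Finset.univ : Finset (Option σ)).val = none ::ₘ Finset.univ.val.map some := rfl
    rw [h3, Multiset.map_cons, Multiset.map_map]
    have h4 : (fun c : Option σ => c.elim (mu 0 - a + 1, 2) (l U)) ∘ some = l U := rfl
    rw [h4, hl1]
    rfl
  rw [← Finset.sum_coe_sort]
  calc ∑ U : {U // U ∈ T}, cc2 m (tl mu) U.1
      = ∑ U : {U // U ∈ T}, Module.finrank ℂ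
          (PL m (Option σ) (fun c => c.elim (mu 0 - a + 1, 2) (l U)) (tl mu)) :=
        Finset.sum_congr rfl fun U _ => h2 U
    _ ≤ Module.finrank ℂ (PG (m + 1) σ d a mu) := h

/-- The same statement, `ProdLow` of `O2/Cnt.lean`. -/
theorem prodLow : ProdLow := fun n a mu k h1 h2 h3 h4 => b2 n a mu k h4 h1 h2 h3

end Vale.Agent.P181.O2.H731
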